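import Mathlib

/-!
Definitions for problem P339: 2-to-1 games with perfect completeness, and the Max-NTW
(Not-Two) constraint satisfaction problem, together with an explicit local gadget reduction.
-/

namespace Vale.Agent.Lib.P339

open scoped BigOperators

/-- A weighted 2-to-1 game with alphabets `Fin (2 * q)` on the left and `Fin q` on the right:
left vertices `U`, right vertices `V`, constraint index set `E`; each constraint `e` joins
`u e` to `v e` and carries a map `π e` such that every right label has exactly two preimages;
`μ` is a probability distribution on `E`. -/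
structure TwoToOneGame (q : ℕ) (U V E : Type) [Fintype E] where
  u : E → U
  v : E → V
  π : E → Fin (2 * q) → Fin q
  two_preimages : ∀ (e : E) (b : Fin q), (Finset.univ.filter fun a => π e a = b).card = 2
  μ : E → ℝ
  μ_nonneg : ∀ e, 0 ≤ μ e
  μ_sum : ∑ e, μ e = 1

variable {q : ℕ} {U V E : Type} [Fintype E]

/-- The `μ`-probability that a random constraint is satisfied by the labeling `(A, B)`. -/
noncomputable def TwoToOneGame.satWeight (G : TwoToOneGame q U V E)
    (A : U → Fin (2 * q)) (B : V → Fin q) : ℝ :=
  ∑ e, if G.π e (A (G.u e)) = B (G.v e) then G.μ e else 0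

/-- The value of a game: the supremum (a maximum, over a finite set) of `satWeight`
over all labelings. -/
noncomputable def TwoToOneGame.value (G : TwoToOneGame q U V E) : ℝ :=
  ⨆ L : (U → Fin (2 * q)) × (V → Fin q), G.satWeight L.1 L.2

/-- The Not-Two predicate on three Boolean values: the number of `true` inputs is not exactly two. -/
def notTwo (x y z : Bool) : Bool :=
  !((x && y && !z) || (x && !y && z) || (!x && y && z))

/-- A Max-NTW instance with `n` variables and `m` constraints: each constraint consists of three
literals, a literal being a variable together with a flag saying whether it is negated. -/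
abbrev NTWInstance (n m : ℕ) : Type := Fin m → Fin 3 → Fin n × Bool

/-- The value of a literal under an assignment. -/
def litValue {n : ℕ} (a : Fin n → Bool) (l : Fin n × Bool) : Bool := xor (a l.1) l.2

/-- Whether constraint `i` is satisfied by the assignment `a`. -/
def NTWInstance.sat {n m : ℕ} (I : NTWInstance n m) (a : Fin n → Bool) (i : Fin m) : Bool :=
  notTwo (litValue a (I i 0)) (litValue a (I i 1)) (litValue a (I i 2))

/-- The fraction of constraints satisfied by `a`. -/
noncomputable def NTWInstance.frac {n m : ℕ} (I : NTWInstance n m) (a : Fin n → Bool) : ℝ :=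
  ((Finset.univ.filter fun i => I.sat a i = true).card : ℝ) / m

/-- The value of a Max-NTW instance: the maximal fraction of satisfied constraints. -/
noncomputable def NTWInstance.value {n m : ℕ} (I : NTWInstance n m) : ℝ :=
  ⨆ a : Fin n → Bool, I.frac a

/-- Flip a right label: this swaps `0 ↔ 1`, `2 ↔ 3`, `4 ↔ 5`, that is it negates the low bit. -/
def flipLabel : Fin 6 → Fin 6 := ![1, 0, 3, 2, 5, 4]

/-- Flip a right label when the Boolean flag is set. -/
def signLabel (s : Bool) (t : Fin 6) : Fin 6 := if s then flipLabel t else t

/-- The gadget's first projection of the left vertex of type A. -/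
def proj1 : Fin (2 * 6) → Fin 6 := ![0, 0, 1, 1, 2, 2, 4, 3, 3, 5, 4, 5]
/-- The gadget's second projection of the left vertex of type A. -/
def proj2 : Fin (2 * 6) → Fin 6 := ![0, 1, 0, 1, 2, 2, 4, 3, 3, 5, 5, 4]
/-- The projection of the left vertex of type A to the auxiliary right vertex. -/
def projS : Fin (2 * 6) → Fin 6 := ![0, 2, 2, 4, 0, 1, 1, 4, 5, 5, 3, 3]
/-- The projection of the left vertex of type B to the auxiliary right vertex. -/
def projT : Fin (2 * 6) → Fin 6 := ![0, 0, 2, 4, 1, 1, 2, 3, 3, 4, 5, 5]
/-- The projection of the left vertex of type B to the third literal's variable. -/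
def projZ : Fin (2 * 6) → Fin 6 := ![0, 1, 0, 1, 4, 5, 2, 2, 4, 3, 3, 5]

/-- The five label maps of the gadget of constraint `i`; each is a map `Fin 12 → Fin 6`
with all fibers of size two. -/
def gadgetMap {n m : ℕ} (I : NTWInstance n m) (e : Fin m × Fin 5) : Fin (2 * 6) → Fin 6 :=
  match e.2.val with
  | 0 => fun ℓ => signLabel (I e.1 0).2 (proj1 ℓ)
  | 1 => fun ℓ => signLabel (I e.1 1).2 (proj2 ℓ)
  | 2 => projS
  | 3 => projT
  | _ => fun ℓ => signLabel (I e.1 2).2 (projZ ℓ)

/-- The left end of a gadget edge: edges `0, 1, 2` of constraint `i` start at `(i, false)`,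
edges `3, 4` start at `(i, true)`. -/
def gadgetU {m : ℕ} (e : Fin m × Fin 5) : Fin m × Bool := (e.1, decide (3 ≤ e.2.val))

/-- The right end of a gadget edge: edges `0, 1, 4` end at the variables of the three literals;
edges `2, 3` end at the auxiliary right vertex of the constraint. -/
def gadgetV {n m : ℕ} (I : NTWInstance n m) (e : Fin m × Fin 5) : Fin n ⊕ Fin m :=
  match e.2.val with
  | 0 => Sum.inl (I e.1 0).1
  | 1 => Sum.inl (I e.1 1).1
  | 2 => Sum.inr e.1
  | 3 => Sum.inr e.1
  | _ => Sum.inl (I e.1 2).1

theorem gadgetMap_two_preimages {n m : ℕ} (I : NTWInstance n m) (e : Fin m × Fin 5) (b : Fin 6) :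
    (Finset.univ.filter fun a => gadgetMap I e a = b).card = 2 := by
  have h1 : ∀ (s : Bool) (b : Fin 6),
      (Finset.univ.filter fun a => signLabel s (proj1 a) = b).card = 2 := by decide
  have h2 : ∀ (s : Bool) (b : Fin 6),
      (Finset.univ.filter fun a => signLabel s (proj2 a) = b).card = 2 := by decide
  have h3 : ∀ (b : Fin 6), (Finset.univ.filter fun a => projS a = b).card = 2 := by decide
  have h4 : ∀ (b : Fin 6), (Finset.univ.filter fun a => projT a = b).card = 2 := by decide
  have h5 : ∀ (s : Bool) (b : Fin 6),
      (Finset.univ.filter fun a => signLabel s (projZ a) = b).card = 2 := by decide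
  obtain ⟨i, j⟩ := e
  fin_cases j
  · exact h1 _ b
  · exact h2 _ b
  · exact h3 b
  · exact h4 b
  · exact h5 _ b

/-- The gadget reduction: every constraint of a Max-NTW instance becomes two left vertices,
one auxiliary right vertex and five 2-to-1 constraints, all with the same weight. -/
noncomputable def gadgetGame {n m : ℕ} (I : NTWInstance n m) (hm : 0 < m) :
    TwoToOneGame 6 (Fin m × Bool) (Fin n ⊕ Fin m) (Fin m × Fin 5) where
  u := gadgetU
  v := gadgetV I
  π := gadgetMap I
  two_preimages := gadgetMap_two_preimages I
  μ := fun _ => 1 / (5 * (m : ℝ))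
  μ_nonneg := fun _ => by positivity
  μ_sum := by
    have : (m : ℝ) ≠ 0 := by exact_mod_cast hm.ne'
    simp [Finset.sum_const, Finset.card_univ, Fintype.card_prod]
    field_simp

end Vale.Agent.Lib.P339
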